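import Vale.Agent.P141.Main

/-! Unboundedness of the trilinear Hilbert transform in a range below one half. -/

open MeasureTheory Filter Topology
open scoped ENNReal NNReal SchwartzMap

namespace Vale.Agent.Results.P141.NegativeRange

theorem result :
    (∀ (p1 p2 p3 : ℝ≥0∞) (r : ℝ), 1 < p1 → 1 < p2 → 1 < p3 → 0 < r →
      p1⁻¹ + p2⁻¹ + p3⁻¹ = (ENNReal.ofReal r)⁻¹ →
      (r < Real.log 13 / Real.log (676 / 3) ∨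
        ∃ c σ : ℝ, 0 < σ ∧ σ ≤ 1 ∧
          √(c ^ 2 + σ ^ 2) ^ (p1⁻¹).toReal *
          √((4 * c - 1) ^ 2 + 16 * σ ^ 2) ^ (p2⁻¹).toReal *
          √((3 * c - 1) ^ 2 + 9 * σ ^ 2) ^ (p3⁻¹).toReal < σ) →
      ∀ C : ℝ≥0, ∃ f1 f2 f3 : 𝓢(ℝ, ℂ), ∃ g : ℝ → ℂ,
        (∀ x : ℝ, Tendsto (fun q : ℝ × ℝ => ∫ t in {t : ℝ | q.1 < |t| ∧ |t| < q.2},
            f1 (x - t) * f2 (x - 2 * t) * f3 (x - 3 * t) / (t : ℂ))
          ((𝓝[>] (0 : ℝ)) ×ˢ atTop) (𝓝 (g x))) ∧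
        (C : ℝ≥0∞) * eLpNorm f1 p1 volume * eLpNorm f2 p2 volume * eLpNorm f3 p3 volume <
          eLpNorm g (ENNReal.ofReal r) volume) ∧
    (∀ r : ℝ, 1/3 < r → r < 1/2 → ∃ p1 p2 p3 : ℝ≥0∞, 1 < p1 ∧ 1 < p2 ∧ 1 < p3 ∧
      p1⁻¹ + p2⁻¹ + p3⁻¹ = (ENNReal.ofReal r)⁻¹ ∧
      ∀ C : ℝ≥0, ∃ f1 f2 f3 : 𝓢(ℝ, ℂ), ∃ g : ℝ → ℂ,
        (∀ x : ℝ, Tendsto (fun q : ℝ × ℝ => ∫ t in {t : ℝ | q.1 < |t| ∧ |t| < q.2},
            f1 (x - t) * f2 (x - 2 * t) * f3 (x - 3 * t) / (t : ℂ))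
          ((𝓝[>] (0 : ℝ)) ×ˢ atTop) (𝓝 (g x))) ∧
        (C : ℝ≥0∞) * eLpNorm f1 p1 volume * eLpNorm f2 p2 volume * eLpNorm f3 p3 volume <
          eLpNorm g (ENNReal.ofReal r) volume) := by
  refine ⟨fun p1 p2 p3 r h1 h2 h3 hr hp hrange C => ?_,
    fun r hr3 hr2 => Vale.Agent.P141.exists_unbounded_tuple hr3 hr2⟩
  rcases hrange with h | ⟨c, σ, hσ0, hσ1, hlt⟩
  · refine Vale.Agent.P141.unbounded_of_gaussian (c := 7/26) (σ := √3 / 26) (by positivity) ?_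
      p1 p2 p3 r h1 h2 h3 hr hp
      (Vale.Agent.P141.range_ineq hr (Vale.Agent.P141.toReal_inv_sum h1 h2 h3 hr hp) h) C
    rw [div_le_one (by norm_num), Real.sqrt_le_left (by norm_num)]
    norm_num
  · exact Vale.Agent.P141.unbounded_of_gaussian hσ0 hσ1 p1 p2 p3 r h1 h2 h3 hr hp hlt C

end Vale.Agent.Results.P141.NegativeRange
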